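import Vale.Agent.Lib.P247.Pointwise

namespace Vale.Agent.Lib.P247

open Matrix

lemma gram_isHermitian' (ω : Fin 3 → Matrix (Fin 4) (Fin 4) ℝ) : (gram ω).IsHermitian := by
  ext i j
  simp [gram, wedge_symm (ω j) (ω i)]

/-- The quadratic form of the Gram matrix is the wedge square of the linear combination. -/
lemma quad_eq_wedge (ω : Fin 3 → Matrix (Fin 4) (Fin 4) ℝ) (v : Fin 3 → ℝ) :
    star v ⬝ᵥ (gram ω *ᵥ v) = wedge (∑ i, v i • ω i) (∑ i, v i • ω i) := by
  rw [wedge_sum_left]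
  simp only [dotProduct, mulVec, gram, Matrix.of_apply, Pi.star_apply, star_trivial,
    Finset.mul_sum]
  refine Finset.sum_congr rfl (fun i _ => ?_)
  rw [wedge_sum_right]
  refine Finset.sum_congr rfl (fun j _ => ?_)
  rw [wedge_smul_left, wedge_smul_right]
  ring

/-- Mixed positivity criterion at a point: if the mixed products `ω_i ∧ θ_j` vanish off the
diagonal and are positive on it, the segment from `ω` to `θ` consists of definite triples. -/
lemma pointwise_path (θ ω : Fin 3 → Matrix (Fin 4) (Fin 4) ℝ)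
    (hθ : ∀ i j, wedge (θ i) (θ j) = if i = j then 2 else 0)
    (horth : ∀ i j, i ≠ j → wedge (ω i) (θ j) = 0)
    (hω : (gram ω).PosDef)
    (hm : ∀ i, 0 < wedge (ω i) (θ i))
    (t : ℝ) (ht0 : 0 ≤ t) (ht1 : t ≤ 1) :
    (gram (fun i => (1 - t) • ω i + t • θ i)).PosDef := by
  refine PosDef.of_dotProduct_mulVec_pos (gram_isHermitian' _) ?_
  intro v hv
  have h1 := hω.dotProduct_mulVec_pos hv
  rw [quad_eq_wedge] at h1 ⊢
  set Ω := ∑ i, v i • ω i with hΩ
  set Θ := ∑ i, v i • θ i with hΘ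
  have hsplit : (∑ i, v i • ((1 - t) • ω i + t • θ i)) = (1 - t) • Ω + t • Θ := by
    rw [hΩ, hΘ, Finset.smul_sum, Finset.smul_sum, ← Finset.sum_add_distrib]
    refine Finset.sum_congr rfl (fun i _ => ?_)
    module
  rw [hsplit]
  have hΘΘ : wedge Θ Θ = 2 * ∑ i, v i ^ 2 := by
    rw [hΘ, wedge_sum_left, Finset.mul_sum]
    refine Finset.sum_congr rfl (fun i _ => ?_)
    rw [wedge_sum_right]
    simp only [wedge_smul_left, wedge_smul_right, hθ]
    rw [Finset.sum_eq_single i]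
    · simp; ring
    · intro j _ hji
      have : i ≠ j := fun e => hji e.symm
      simp [this]
    · intro h; exact absurd (Finset.mem_univ i) h
  have hΩΘ : wedge Ω Θ = ∑ i, v i ^ 2 * wedge (ω i) (θ i) := by
    rw [hΩ, wedge_sum_left]
    refine Finset.sum_congr rfl (fun i _ => ?_)
    rw [hΘ, wedge_sum_right]
    simp only [wedge_smul_left, wedge_smul_right]
    rw [Finset.sum_eq_single i]
    · ring
    · intro j _ hji
      rw [horth i j (fun e => hji e.symm)]; ring
    · intro h; exact absurd (Finset.mem_univ i) h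
  have hΩΘ0 : 0 ≤ wedge Ω Θ := by
    rw [hΩΘ]
    exact Finset.sum_nonneg (fun i _ => mul_nonneg (sq_nonneg _) (hm i).le)
  have hvpos : 0 < ∑ i, v i ^ 2 := by
    have hex : ∃ i, v i ≠ 0 := by
      by_contra hcon
      apply hv
      funext i
      by_contra hi
      exact hcon ⟨i, hi⟩
    obtain ⟨i0, hi0⟩ := hex
    exact Finset.sum_pos' (fun i _ => sq_nonneg _) ⟨i0, Finset.mem_univ _, by positivity⟩
  have hexp : wedge ((1 - t) • Ω + t • Θ) ((1 - t) • Ω + t • Θ)
      = (1 - t) ^ 2 * wedge Ω Ω + 2 * t * (1 - t) * wedge Ω Θ + t ^ 2 * wedge Θ Θ := by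
    simp only [wedge_add_left, wedge_add_right, wedge_smul_left, wedge_smul_right]
    rw [wedge_symm Θ Ω]
    ring
  rw [hexp, hΘΘ]
  have h1t : 0 ≤ 1 - t := by linarith
  have ha : 0 ≤ (1 - t) ^ 2 * wedge Ω Ω := mul_nonneg (sq_nonneg _) h1.le
  have hb : 0 ≤ 2 * t * (1 - t) * wedge Ω Θ :=
    mul_nonneg (mul_nonneg (mul_nonneg (by norm_num) ht0) h1t) hΩΘ0
  have hc : 0 ≤ t ^ 2 * (2 * ∑ i, v i ^ 2) := by positivity
  rcases eq_or_lt_of_le ht1 with h | h
  · subst h
    have : 0 < (1 : ℝ) ^ 2 * (2 * ∑ i, v i ^ 2) := by positivity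
    linarith
  · have : 0 < (1 - t) ^ 2 * wedge Ω Ω := mul_pos (by nlinarith) h1
    linarith

/-- Nonvanishing of the diagonal mixed product for a definite triple that is orthogonal to
the hyperkaehler triple off the diagonal. -/
lemma mixed_ne_zero (θ ω : Fin 3 → Matrix (Fin 4) (Fin 4) ℝ)
    (hθ : ∀ i j, wedge (θ i) (θ j) = if i = j then 2 else 0)
    (horth : ∀ i j, i ≠ j → wedge (ω i) (θ j) = 0)
    (hω : (gram ω).PosDef) (i : Fin 3) : wedge (ω i) (θ i) ≠ 0 := by
  intro h0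
  have hd := hω.diag_pos (i := i)
  simp only [gram, Matrix.of_apply] at hd
  have hle : wedge (ω i) (ω i) ≤ 0 := by
    apply wedge_self_nonpos_of_orth θ hθ
    intro j
    by_cases hij : i = j
    · subst hij; exact h0
    · exact horth i j hij
  linarith

/-- The abstract linear path theorem over a connected base. -/
theorem abstract_path {X : Type*} [TopologicalSpace X] [PreconnectedSpace X]
    (θ ω : X → Fin 3 → Matrix (Fin 4) (Fin 4) ℝ)
    (hθ : ∀ x i j, wedge (θ x i) (θ x j) = if i = j then 2 else 0)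
    (horth : ∀ x i j, i ≠ j → wedge (ω x i) (θ x j) = 0)
    (hω : ∀ x, (gram (ω x)).PosDef)
    (hcont : ∀ i, Continuous fun x => wedge (ω x i) (θ x i))
    (hpos : ∀ i, ∃ x, 0 < wedge (ω x i) (θ x i)) :
    ∀ t ∈ Set.Icc (0 : ℝ) 1, ∀ x, (gram (fun i => (1 - t) • ω x i + t • θ x i)).PosDef := by
  have hm : ∀ x i, 0 < wedge (ω x i) (θ x i) := by
    intro x i
    obtain ⟨x0, hx0⟩ := hpos i
    by_contra hcon
    have hcon := not_lt.mp hcon
    have hmem : (0 : ℝ) ∈ Set.Icc (wedge (ω x i) (θ x i)) (wedge (ω x0 i) (θ x0 i)) :=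
      ⟨hcon, hx0.le⟩
    obtain ⟨z, hz⟩ := intermediate_value_univ x x0 (hcont i) hmem
    exact mixed_ne_zero (θ z) (ω z) (hθ z) (horth z) (hω z) i hz
  intro t ht x
  exact pointwise_path (θ x) (ω x) (hθ x) (horth x) (hω x) (hm x) t ht.1 ht.2

end Vale.Agent.Lib.P247
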