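import Vale.Agent.Lib.P247.Defs

namespace Vale.Agent.Lib.P247

open Matrix

/-- The 2-form `-(H J) + (H J)ᵀ` obtained from a Hessian matrix `H`. -/
def hessForm (J H : Matrix (Fin 4) (Fin 4) ℝ) : Matrix (Fin 4) (Fin 4) ℝ :=
  Matrix.of fun j k => - (∑ l, H j l * J l k) + ∑ l, H k l * J l j

/-- Half of the trace of a `4 × 4` matrix. -/
noncomputable def htr (H : Matrix (Fin 4) (Fin 4) ℝ) : ℝ := (H 0 0 + H 1 1 + H 2 2 + H 3 3) / 2

/-- Coordinates of the anti-self-dual part of `hessForm (stdJ i) H`. -/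
noncomputable def asd (i : Fin 3) (H : Matrix (Fin 4) (Fin 4) ℝ) : Fin 3 → ℝ :=
  match i with
  | 0 => ![(H 0 0 + H 1 1 - H 2 2 - H 3 3) / 2, H 1 2 - H 0 3, H 0 2 + H 1 3]
  | 1 => ![H 0 3 + H 1 2, (H 0 0 + H 2 2 - H 1 1 - H 3 3) / 2, H 2 3 - H 0 1]
  | 2 => ![H 1 3 - H 0 2, H 0 1 + H 2 3, (H 0 0 + H 3 3 - H 1 1 - H 2 2) / 2]

lemma wedge_comm (A B : Matrix (Fin 4) (Fin 4) ℝ) : wedge A B = wedge B A := by
  unfold wedge; ring

lemma wedge_formula (c s : ℝ) (A B : Matrix (Fin 4) (Fin 4) ℝ)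
    (hA : ∀ j k, A j k = A k j) (hB : ∀ j k, B j k = B k j) (i j : Fin 3) :
    wedge (c • kform (stdJ i) + s • hessForm (stdJ i) A)
        (c • kform (stdJ j) + s • hessForm (stdJ j) B)
      = (if i = j then 2 * (c + s * htr A) * (c + s * htr B) else 0)
        - 2 * s ^ 2 * (asd i A 0 * asd j B 0 + asd i A 1 * asd j B 1
            + asd i A 2 * asd j B 2) := by
  fin_cases i <;> fin_cases j <;>
    simp [wedge, kform, stdJ, hessForm, htr, asd, Fin.sum_univ_four,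
      hA 1 0, hA 2 0, hA 3 0, hA 2 1, hA 3 1, hA 3 2,
      hB 1 0, hB 2 0, hB 3 0, hB 2 1, hB 3 1, hB 3 2] <;> ring

/-- The pointwise triple `c θ_i + s (-(H_i J_i) + (H_i J_i)ᵀ)`. -/
def algTriple (c s : ℝ) (H : Fin 3 → Matrix (Fin 4) (Fin 4) ℝ) :
    Fin 3 → Matrix (Fin 4) (Fin 4) ℝ :=
  fun i => c • kform (stdJ i) + s • hessForm (stdJ i) (H i)

lemma gram_isHermitian (ω : Fin 3 → Matrix (Fin 4) (Fin 4) ℝ) : (gram ω).IsHermitian := by
  ext i j
  simp [gram, wedge_comm (ω j) (ω i)]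

lemma quad_formula (c s : ℝ) (H : Fin 3 → Matrix (Fin 4) (Fin 4) ℝ)
    (hH : ∀ i j k, H i j k = H i k j) (v : Fin 3 → ℝ) :
    star v ⬝ᵥ (gram (algTriple c s H) *ᵥ v)
      = 2 * (v 0 ^ 2 * (c + s * htr (H 0)) ^ 2 + v 1 ^ 2 * (c + s * htr (H 1)) ^ 2
            + v 2 ^ 2 * (c + s * htr (H 2)) ^ 2)
        - 2 * s ^ 2 * ((v 0 * asd 0 (H 0) 0 + v 1 * asd 1 (H 1) 0 + v 2 * asd 2 (H 2) 0) ^ 2
            + (v 0 * asd 0 (H 0) 1 + v 1 * asd 1 (H 1) 1 + v 2 * asd 2 (H 2) 1) ^ 2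
            + (v 0 * asd 0 (H 0) 2 + v 1 * asd 1 (H 1) 2 + v 2 * asd 2 (H 2) 2) ^ 2) := by
  simp only [gram, algTriple, dotProduct, mulVec, Fin.sum_univ_three, Matrix.of_apply,
    wedge_formula c s _ _ (hH _) (hH _), Pi.star_apply, star_trivial]
  simp
  ring

/-- Diagonal positivity forces the self-dual coefficient to be nonzero. -/
lemma coeff_ne_zero (c : ℝ) (H : Fin 3 → Matrix (Fin 4) (Fin 4) ℝ)
    (hH : ∀ i j k, H i j k = H i k j)
    (hpos : (gram (algTriple c 1 H)).PosDef) (i : Fin 3) : c + htr (H i) ≠ 0 := by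
  have hd := hpos.diag_pos (i := i)
  simp only [gram, algTriple, Matrix.of_apply] at hd
  rw [wedge_formula c 1 _ _ (hH i) (hH i)] at hd
  intro h0
  simp only [if_true, one_mul, h0] at hd
  nlinarith [sq_nonneg (asd i (H i) 0), sq_nonneg (asd i (H i) 1), sq_nonneg (asd i (H i) 2)]

/-- The pointwise linear-path lemma. -/
lemma algTriple_posDef (c s : ℝ) (hc : 0 < c) (hs0 : 0 ≤ s) (hs1 : s ≤ 1)
    (H : Fin 3 → Matrix (Fin 4) (Fin 4) ℝ) (hH : ∀ i j k, H i j k = H i k j)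
    (hm : ∀ i, 0 < c + htr (H i))
    (hpos : (gram (algTriple c 1 H)).PosDef) : (gram (algTriple c s H)).PosDef := by
  refine PosDef.of_dotProduct_mulVec_pos (gram_isHermitian _) ?_
  intro v hv
  have h1 := hpos.dotProduct_mulVec_pos hv
  rw [quad_formula c 1 H hH v] at h1
  rw [quad_formula c s H hH v]
  have key : ∀ i : Fin 3, s ^ 2 * (c + 1 * htr (H i)) ^ 2 ≤ (c + s * htr (H i)) ^ 2 := by
    intro i
    have hmi := hm i
    have e : c + s * htr (H i) = c * (1 - s) + s * (c + htr (H i)) := by ring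
    have h2 : 0 ≤ c * (1 - s) := mul_nonneg hc.le (by linarith)
    have h3 : 0 ≤ s * (c + htr (H i)) := mul_nonneg hs0 hmi.le
    rw [e, one_mul]
    nlinarith [mul_nonneg h2 h3, sq_nonneg (c * (1 - s))]
  rcases eq_or_lt_of_le hs0 with hs | hs
  · subst hs
    have hv' : 0 < v 0 ^ 2 + v 1 ^ 2 + v 2 ^ 2 := by
      by_contra hcon
      apply hv
      have h0 : v 0 = 0 := by nlinarith [sq_nonneg (v 0), sq_nonneg (v 1), sq_nonneg (v 2)]
      have h1' : v 1 = 0 := by nlinarith [sq_nonneg (v 0), sq_nonneg (v 1), sq_nonneg (v 2)]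
      have h2 : v 2 = 0 := by nlinarith [sq_nonneg (v 0), sq_nonneg (v 1), sq_nonneg (v 2)]
      ext i
      fin_cases i <;> simp [h0, h1', h2]
    have : 0 < c ^ 2 * (v 0 ^ 2 + v 1 ^ 2 + v 2 ^ 2) := by positivity
    nlinarith
  · have hs2 : 0 < s ^ 2 := by positivity
    have k0 := mul_le_mul_of_nonneg_left (key 0) (sq_nonneg (v 0))
    have k1 := mul_le_mul_of_nonneg_left (key 1) (sq_nonneg (v 1))
    have k2 := mul_le_mul_of_nonneg_left (key 2) (sq_nonneg (v 2))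
    have h1s := mul_pos hs2 h1
    nlinarith

end Vale.Agent.Lib.P247
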