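import Vale.Agent.Lib.P247.Algebra

namespace Vale.Agent.Lib.P247

open Matrix

/-- The Hessian matrix `H j l = ∂_j ∂_l f`. -/
noncomputable def hess (f : (Fin 4 → ℝ) → ℝ) (x : Fin 4 → ℝ) : Matrix (Fin 4) (Fin 4) ℝ :=
  Matrix.of fun j l => pd j (fun y => pd l f y) x

lemma contDiff_pd {f : (Fin 4 → ℝ) → ℝ} (hf : ContDiff ℝ 2 f) (l : Fin 4) :
    ContDiff ℝ 1 (fun y => pd l f y) := by
  have h1 : ContDiff ℝ 1 (fderiv ℝ f) := hf.fderiv_right (by norm_num)
  exact h1.clm_apply contDiff_const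

lemma differentiable_pd {f : (Fin 4 → ℝ) → ℝ} (hf : ContDiff ℝ 2 f) (l : Fin 4) :
    Differentiable ℝ (fun y => pd l f y) :=
  (contDiff_pd hf l).differentiable (by norm_num)

lemma continuous_hess_apply {f : (Fin 4 → ℝ) → ℝ} (hf : ContDiff ℝ 2 f) (j l : Fin 4) :
    Continuous (fun x => hess f x j l) := by
  have h1 : Continuous (fderiv ℝ (fun y => pd l f y)) :=
    (contDiff_pd hf l).continuous_fderiv (by norm_num)
  have h2 : Continuous (fun x => fderiv ℝ (fun y => pd l f y) x (Pi.single j 1)) :=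
    h1.clm_apply continuous_const
  simpa [hess, pd] using h2

lemma hess_symm {f : (Fin 4 → ℝ) → ℝ} (hf : ContDiff ℝ 2 f) (x : Fin 4 → ℝ) (j l : Fin 4) :
    hess f x j l = hess f x l j := by
  have h1 : ContDiff ℝ 1 (fderiv ℝ f) := hf.fderiv_right (by norm_num)
  have hd : Differentiable ℝ f := hf.differentiable (by norm_num)
  have hd1 : Differentiable ℝ (fderiv ℝ f) := h1.differentiable (by norm_num)
  have key : ∀ a b : Fin 4, hess f x a b
      = (fderiv ℝ (fderiv ℝ f) x (Pi.single a 1)) (Pi.single b 1) := by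
    intro a b
    simp only [hess, pd, Matrix.of_apply]
    rw [fderiv_clm_apply (hd1 x) (differentiableAt_const _)]
    simp
  rw [key, key]
  exact second_derivative_symmetric (f := f) (f' := fderiv ℝ f)
    (f'' := fderiv ℝ (fderiv ℝ f) x) (fun y => (hd y).hasFDerivAt) (hd1 x).hasFDerivAt _ _

lemma extD_dcJ {f : (Fin 4 → ℝ) → ℝ} (hf : ContDiff ℝ 2 f) (J : Matrix (Fin 4) (Fin 4) ℝ)
    (x : Fin 4 → ℝ) : extD (dcJ J f) x = hessForm J (hess f x) := by
  have hd := differentiable_pd hf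
  have key : ∀ j k : Fin 4, pd j (fun y => dcJ J f y k) x = - ∑ l, hess f x j l * J l k := by
    intro j k
    show fderiv ℝ (fun y => - ∑ l, pd l f y * J l k) x (Pi.single j 1)
      = - ∑ l, fderiv ℝ (fun y => pd l f y) x (Pi.single j 1) * J l k
    rw [fderiv_fun_neg]
    rw [fderiv_fun_sum (fun l _ => ((hd l) x).mul_const _)]
    simp only [_root_.neg_apply, _root_.sum_apply]
    congr 1
    refine Finset.sum_congr rfl (fun l _ => ?_)
    rw [fderiv_mul_const ((hd l) x) (J l k)]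
    simp [mul_comm]
  ext j k
  simp only [extD, hessForm, Matrix.of_apply, key]
  ring

lemma hess_const_mul {f : (Fin 4 → ℝ) → ℝ} (hf : ContDiff ℝ 2 f) (s : ℝ) (x : Fin 4 → ℝ) :
    hess (fun y => s * f y) x = s • hess f x := by
  have hd : Differentiable ℝ f := hf.differentiable (by norm_num)
  have hd2 := differentiable_pd hf
  ext j l
  simp only [hess, pd, Matrix.of_apply, Matrix.smul_apply, smul_eq_mul]
  have e1 : (fun y => fderiv ℝ (fun z => s * f z) y (Pi.single l 1))
      = fun y => s * fderiv ℝ f y (Pi.single l 1) := by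
    funext y
    rw [fderiv_const_mul (hd y)]
    simp
  rw [e1]
  have := fderiv_const_mul ((hd2 l) x) s
  simp only [pd] at this
  rw [this]
  simp

lemma hessForm_smul (J H : Matrix (Fin 4) (Fin 4) ℝ) (s : ℝ) :
    hessForm J (s • H) = s • hessForm J H := by
  ext j k
  simp only [hessForm, Matrix.of_apply, Matrix.smul_apply, smul_eq_mul, mul_assoc,
    ← Finset.mul_sum]
  ring

lemma potTriple_eq {f : Fin 3 → (Fin 4 → ℝ) → ℝ} (hf : ∀ i, ContDiff ℝ 2 (f i)) (c s : ℝ)
    (x : Fin 4 → ℝ) :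
    potTriple c (fun i y => s * f i y) x = algTriple c s (fun i => hess (f i) x) := by
  funext i
  have hsf : ContDiff ℝ 2 (fun y => s * f i y) := contDiff_const.mul (hf i)
  simp only [potTriple, algTriple]
  rw [extD_dcJ hsf, hess_const_mul (hf i), hessForm_smul]

lemma potTriple_eq_one {f : Fin 3 → (Fin 4 → ℝ) → ℝ} (hf : ∀ i, ContDiff ℝ 2 (f i)) (c : ℝ)
    (x : Fin 4 → ℝ) :
    potTriple c f x = algTriple c 1 (fun i => hess (f i) x) := by
  have := potTriple_eq hf c 1 x
  simpa using this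

end Vale.Agent.Lib.P247
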