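import Mathlib

/-!
Coordinate model for triples of 2-forms on a flat 4-torus `ℝ⁴ / Λ`.

A 2-form on `ℝ⁴` is stored as the matrix `A j k = ω(e_j, e_k)`, a 1-form as its coefficient
vector.  All objects below are the textbook coordinate formulas.
-/

namespace Vale.Agent.Lib.P247

/-- Partial derivative of `g` in the `k`-th coordinate direction at `x`. -/
noncomputable def pd (k : Fin 4) (g : (Fin 4 → ℝ) → ℝ) (x : Fin 4 → ℝ) : ℝ :=
  fderiv ℝ g x (Pi.single k 1)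

/-- Exterior derivative of the 1-form `α = ∑ₖ αₖ dxₖ`: the 2-form with
`(dα)(e_j, e_k) = ∂_j α_k - ∂_k α_j`. -/
noncomputable def extD (α : (Fin 4 → ℝ) → Fin 4 → ℝ) (x : Fin 4 → ℝ) :
    Matrix (Fin 4) (Fin 4) ℝ :=
  Matrix.of fun j k => pd j (fun y => α y k) x - pd k (fun y => α y j) x

/-- The 1-form `d^c_J f = - df ∘ J` for a constant complex structure `J` on `ℝ⁴`
(`J` acts on column vectors, so `J e_k = ∑ₗ J l k • e_l`). -/
noncomputable def dcJ (J : Matrix (Fin 4) (Fin 4) ℝ) (f : (Fin 4 → ℝ) → ℝ)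
    (x : Fin 4 → ℝ) : Fin 4 → ℝ :=
  fun k => - ∑ l, pd l f x * J l k

/-- The Kaehler form `θ_J(u, v) = ⟨J u, v⟩` of the Euclidean metric, as the matrix
`θ_J(e_j, e_k) = J k j`. -/
def kform (J : Matrix (Fin 4) (Fin 4) ℝ) : Matrix (Fin 4) (Fin 4) ℝ :=
  Matrix.of fun j k => J k j

/-- The coefficient of `dx₀ ∧ dx₁ ∧ dx₂ ∧ dx₃` in the wedge product `A ∧ B` of the 2-forms
`A = ∑_{j<k} A j k dx_j ∧ dx_k` and `B = ∑_{j<k} B j k dx_j ∧ dx_k`. -/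
def wedge (A B : Matrix (Fin 4) (Fin 4) ℝ) : ℝ :=
  A 0 1 * B 2 3 - A 0 2 * B 1 3 + A 0 3 * B 1 2 + A 1 2 * B 0 3 - A 1 3 * B 0 2 + A 2 3 * B 0 1

/-- The standard quaternionic triple of complex structures `I, J, K` on `ℝ⁴`
(`I e₀ = e₁, I e₂ = e₃`; `J e₀ = e₂, J e₃ = e₁`; `K e₀ = e₃, K e₁ = e₂`; `I J = K`). -/
def stdJ : Fin 3 → Matrix (Fin 4) (Fin 4) ℝ :=
  ![!![0, -1, 0, 0; 1, 0, 0, 0; 0, 0, 0, -1; 0, 0, 1, 0],
    !![0, 0, -1, 0; 0, 0, 0, 1; 1, 0, 0, 0; 0, -1, 0, 0],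
    !![0, 0, 0, -1; 0, 0, -1, 0; 0, 1, 0, 0; 1, 0, 0, 0]]

/-- The triple of 2-forms `ω_i = c θ_i + d d^c_{J_i} f_i` (value at the point `x`), where
`θ_i` is the Kaehler form of the `i`-th standard complex structure. -/
noncomputable def potTriple (c : ℝ) (f : Fin 3 → (Fin 4 → ℝ) → ℝ) (x : Fin 4 → ℝ) :
    Fin 3 → Matrix (Fin 4) (Fin 4) ℝ :=
  fun i => c • kform (stdJ i) + extD (dcJ (stdJ i) (f i)) x

/-- The matrix `Q i j = (ω_i ∧ ω_j) / (dx₀ ∧ dx₁ ∧ dx₂ ∧ dx₃)` of a triple of 2-forms at a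
point. The triple is hypersymplectic at the point iff this matrix is positive definite. -/
def gram (ω : Fin 3 → Matrix (Fin 4) (Fin 4) ℝ) : Matrix (Fin 3) (Fin 3) ℝ :=
  Matrix.of fun i j => wedge (ω i) (ω j)

end Vale.Agent.Lib.P247
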