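import Vale.Agent.Lib.P247.Calculus

namespace Vale.Agent.Lib.P247

open Matrix

/-- A continuous function on `ℝ⁴` that is periodic with respect to a full-rank lattice attains
a global minimum. -/
lemma exists_global_min (b : Module.Basis (Fin 4) ℝ (Fin 4 → ℝ)) {f : (Fin 4 → ℝ) → ℝ}
    (hf : Continuous f)
    (hper : ∀ v ∈ Submodule.span ℤ (Set.range b), ∀ x, f (x + v) = f x) :
    ∃ x0, ∀ y, f x0 ≤ f y := by
  have hK : IsCompact (closure (ZSpan.fundamentalDomain b)) :=
    Metric.isCompact_of_isClosed_isBounded isClosed_closure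
      (ZSpan.fundamentalDomain_isBounded b).closure
  have hne : (closure (ZSpan.fundamentalDomain b)).Nonempty :=
    ⟨ZSpan.fract b 0, subset_closure (ZSpan.fract_mem_fundamentalDomain b 0)⟩
  obtain ⟨x0, -, hx0⟩ := hK.exists_isMinOn hne hf.continuousOn
  refine ⟨x0, fun y => ?_⟩
  have h1 : f x0 ≤ f (ZSpan.fract b y) :=
    hx0 (subset_closure (ZSpan.fract_mem_fundamentalDomain b y))
  have h2 : f (ZSpan.fract b y + (ZSpan.floor b y : Fin 4 → ℝ)) = f (ZSpan.fract b y) :=
    hper _ (ZSpan.floor b y).2 _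
  have h3 : ZSpan.fract b y + (ZSpan.floor b y : Fin 4 → ℝ) = y := by
    rw [ZSpan.fract_apply]; abel
  rw [h3] at h2
  rw [h2]; exact h1

/-- At a global minimum of a `C²` function the pure second partial derivatives are
nonnegative. -/
lemma hess_diag_nonneg {f : (Fin 4 → ℝ) → ℝ} (hf : ContDiff ℝ 2 f) {x0 : Fin 4 → ℝ}
    (hmin : ∀ y, f x0 ≤ f y) (k : Fin 4) : 0 ≤ hess f x0 k k := by
  have hd : Differentiable ℝ f := hf.differentiable (by norm_num)
  have hd2 := differentiable_pd hf k
  set e : Fin 4 → ℝ := Pi.single k 1 with he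
  set g : ℝ → ℝ := fun t => f (x0 + t • e) with hg
  have hline : ∀ t : ℝ, HasDerivAt (fun t : ℝ => x0 + t • e) e t := by
    intro t
    have h1 : HasDerivAt (fun t : ℝ => t • e) ((1 : ℝ) • e) t := (hasDerivAt_id t).smul_const e
    simpa using h1.const_add x0
  have hg' : ∀ t, HasDerivAt g (pd k f (x0 + t • e)) t := by
    intro t
    have h1 := (hd (x0 + t • e)).hasFDerivAt.comp_hasDerivAt t (hline t)
    simpa [pd, he, hg, Function.comp_def] using h1
  have hderiv : deriv g = fun t => pd k f (x0 + t • e) := funext fun t => (hg' t).deriv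
  have hg'' : HasDerivAt (fun t : ℝ => pd k f (x0 + t • e)) (hess f x0 k k) (0 : ℝ) := by
    have h0 : x0 + (0 : ℝ) • e = x0 := by simp
    have h1 := (hd2 (x0 + (0 : ℝ) • e)).hasFDerivAt.comp_hasDerivAt (0 : ℝ) (hline 0)
    rw [h0] at h1
    simpa [pd, he, hess, Function.comp_def] using h1
  have hdd : deriv (deriv g) 0 = hess f x0 k k := by
    rw [hderiv]; exact hg''.deriv
  have hgmin : ∀ t, g 0 ≤ g t := by
    intro t
    simpa [hg] using hmin (x0 + t • e)
  have hlocmin : IsLocalMin g 0 := Filter.Eventually.of_forall hgmin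
  by_contra hneg
  have hneg := not_le.mp hneg
  have hcont : ContinuousAt g 0 := (hg' 0).continuousAt
  have hlocmax : IsLocalMax g 0 :=
    isLocalMax_of_deriv_deriv_neg (by rw [hdd]; exact hneg) hlocmin.deriv_eq_zero hcont
  have heq : g =ᶠ[nhds 0] fun _ => g 0 := by
    filter_upwards [hlocmax] with t ht
    exact le_antisymm ht (hgmin t)
  have h2 : deriv (deriv g) 0 = deriv (deriv fun _ : ℝ => g 0) 0 := heq.deriv.deriv_eq
  rw [hdd] at h2
  simp at h2
  linarith

/-- The main analytic step: the self-dual coefficient `c + Δ f / 2` is positive everywhere. -/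
lemma coeff_pos (b : Module.Basis (Fin 4) ℝ (Fin 4 → ℝ)) {f : (Fin 4 → ℝ) → ℝ}
    (hf : ContDiff ℝ 2 f)
    (hper : ∀ v ∈ Submodule.span ℤ (Set.range b), ∀ x, f (x + v) = f x)
    (c : ℝ) (hc : 0 < c) (hne : ∀ x, c + htr (hess f x) ≠ 0) (x : Fin 4 → ℝ) :
    0 < c + htr (hess f x) := by
  obtain ⟨x0, hx0⟩ := exists_global_min b hf.continuous hper
  have hpos0 : 0 < c + htr (hess f x0) := by
    have h := hess_diag_nonneg hf hx0
    have h0 := h 0
    have h1 := h 1
    have h2 := h 2
    have h3 := h 3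
    simp only [htr]
    linarith
  have hcont : Continuous (fun y => c + htr (hess f y)) := by
    have h := continuous_hess_apply hf
    simp only [htr]
    exact continuous_const.add
      (((((h 0 0).add (h 1 1)).add (h 2 2)).add (h 3 3)).div_const 2)
  by_contra hcon
  have hcon := not_lt.mp hcon
  have hmem : (0 : ℝ) ∈ Set.Icc (c + htr (hess f x)) (c + htr (hess f x0)) := ⟨hcon, hpos0.le⟩
  obtain ⟨z, hz⟩ := intermediate_value_univ x x0 hcont hmem
  exact hne z hz

/-- The linear path theorem in the coordinate model. -/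
theorem linear_path (b : Module.Basis (Fin 4) ℝ (Fin 4 → ℝ))
    (f : Fin 3 → (Fin 4 → ℝ) → ℝ) (hf : ∀ i, ContDiff ℝ 2 (f i))
    (hper : ∀ i, ∀ v ∈ Submodule.span ℤ (Set.range b), ∀ x, f i (x + v) = f i x)
    (c : ℝ) (hc : 0 < c)
    (hω : ∀ x, (gram (potTriple c f x)).PosDef) :
    (∀ t ∈ Set.Icc (0 : ℝ) 1, ∀ x,
        (gram (potTriple c (fun i y => (1 - t) * f i y) x)).PosDef)
    ∧ (∀ (t : ℝ) (x : Fin 4 → ℝ) (i : Fin 3),
        potTriple c (fun i y => (1 - t) * f i y) x i
          = (1 - t) • potTriple c f x i + t • (c • kform (stdJ i)))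
    ∧ (∀ i j : Fin 3,
        wedge (c • kform (stdJ i)) (c • kform (stdJ j)) = if i = j then 2 * c ^ 2 else 0) := by
  have hsymm : ∀ x, ∀ i j k, hess (f i) x j k = hess (f i) x k j :=
    fun x i j k => hess_symm (hf i) x j k
  have hω' : ∀ x, (gram (algTriple c 1 (fun i => hess (f i) x))).PosDef := by
    intro x
    rw [← potTriple_eq_one hf c x]; exact hω x
  have hne : ∀ i x, c + htr (hess (f i) x) ≠ 0 :=
    fun i x => coeff_ne_zero c (fun i => hess (f i) x) (hsymm x) (hω' x) i
  have hpos : ∀ x i, 0 < c + htr (hess (f i) x) :=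
    fun x i => coeff_pos b (hf i) (hper i) c hc (hne i) x
  refine ⟨?_, ?_, ?_⟩
  · intro t ht x
    rw [potTriple_eq hf c (1 - t) x]
    exact algTriple_posDef c (1 - t) hc (by linarith [ht.2]) (by linarith [ht.1])
      (fun i => hess (f i) x) (hsymm x) (hpos x) (hω' x)
  · intro t x i
    rw [potTriple_eq hf c (1 - t) x, potTriple_eq_one hf c x]
    simp only [algTriple]
    module
  · intro i j
    have h := wedge_formula c 0 0 0 (fun _ _ => rfl) (fun _ _ => rfl) i j
    simp only [zero_smul, add_zero, zero_mul] at h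
    rw [h]
    split_ifs <;> ring

end Vale.Agent.Lib.P247
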