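import Vale.Agent.Lib.P247.Defs

namespace Vale.Agent.Lib.P247

open Matrix

/-- Self-dual coordinates of a 2-form. -/
def sdc (A : Matrix (Fin 4) (Fin 4) ℝ) : Fin 3 → ℝ :=
  ![A 0 1 + A 2 3, A 0 2 - A 1 3, A 0 3 + A 1 2]

/-- Anti-self-dual coordinates of a 2-form. -/
def asdc (A : Matrix (Fin 4) (Fin 4) ℝ) : Fin 3 → ℝ :=
  ![A 0 1 - A 2 3, A 0 2 + A 1 3, A 0 3 - A 1 2]

lemma wedge_eq_coords (A B : Matrix (Fin 4) (Fin 4) ℝ) :
    wedge A B = (sdc A 0 * sdc B 0 + sdc A 1 * sdc B 1 + sdc A 2 * sdc B 2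
      - (asdc A 0 * asdc B 0 + asdc A 1 * asdc B 1 + asdc A 2 * asdc B 2)) / 2 := by
  simp [wedge, sdc, asdc]
  ring

lemma wedge_symm (A B : Matrix (Fin 4) (Fin 4) ℝ) : wedge A B = wedge B A := by
  unfold wedge; ring

lemma wedge_add_left (A B C : Matrix (Fin 4) (Fin 4) ℝ) :
    wedge (A + B) C = wedge A C + wedge B C := by
  simp [wedge]; ring

lemma wedge_smul_left (a : ℝ) (A C : Matrix (Fin 4) (Fin 4) ℝ) :
    wedge (a • A) C = a * wedge A C := by
  simp [wedge]; ring

lemma wedge_add_right (A B C : Matrix (Fin 4) (Fin 4) ℝ) :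
    wedge C (A + B) = wedge C A + wedge C B := by
  simp [wedge]; ring

lemma wedge_smul_right (a : ℝ) (A C : Matrix (Fin 4) (Fin 4) ℝ) :
    wedge C (a • A) = a * wedge C A := by
  simp [wedge]; ring

lemma wedge_sub_left (A B C : Matrix (Fin 4) (Fin 4) ℝ) :
    wedge (A - B) C = wedge A C - wedge B C := by
  simp [wedge]; ring

/-- A 2-form with vanishing self-dual coordinates has nonpositive square. -/
lemma wedge_self_nonpos_of_sdc_eq_zero (A : Matrix (Fin 4) (Fin 4) ℝ) (h : sdc A = 0) :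
    wedge A A ≤ 0 := by
  rw [wedge_eq_coords]
  have h0 : sdc A 0 = 0 := by rw [h]; rfl
  have h1 : sdc A 1 = 0 := by rw [h]; rfl
  have h2 : sdc A 2 = 0 := by rw [h]; rfl
  rw [h0, h1, h2]
  nlinarith [sq_nonneg (asdc A 0), sq_nonneg (asdc A 1), sq_nonneg (asdc A 2)]

lemma sdc_add (A B : Matrix (Fin 4) (Fin 4) ℝ) : sdc (A + B) = sdc A + sdc B := by
  funext i; fin_cases i <;> simp [sdc] <;> ring

lemma sdc_smul (a : ℝ) (A : Matrix (Fin 4) (Fin 4) ℝ) : sdc (a • A) = a • sdc A := by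
  funext i; fin_cases i <;> simp [sdc] <;> ring

lemma sdc_sum {ι : Type*} (s : Finset ι) (c : ι → ℝ) (w : ι → Matrix (Fin 4) (Fin 4) ℝ) :
    sdc (∑ k ∈ s, c k • w k) = ∑ k ∈ s, c k • sdc (w k) := by
  classical
  induction s using Finset.induction_on with
  | empty =>
    funext i; fin_cases i <;> simp [sdc]
  | insert a s ha ih =>
    rw [Finset.sum_insert ha, Finset.sum_insert ha, sdc_add, sdc_smul, ih]

lemma wedge_sum_left {ι : Type*} (s : Finset ι) (w : ι → Matrix (Fin 4) (Fin 4) ℝ)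
    (C : Matrix (Fin 4) (Fin 4) ℝ) : wedge (∑ k ∈ s, w k) C = ∑ k ∈ s, wedge (w k) C := by
  classical
  induction s using Finset.induction_on with
  | empty => simp [wedge]
  | insert a s ha ih => rw [Finset.sum_insert ha, Finset.sum_insert ha, wedge_add_left, ih]

lemma wedge_sum_right {ι : Type*} (s : Finset ι) (w : ι → Matrix (Fin 4) (Fin 4) ℝ)
    (C : Matrix (Fin 4) (Fin 4) ℝ) : wedge C (∑ k ∈ s, w k) = ∑ k ∈ s, wedge C (w k) := by
  rw [wedge_symm, wedge_sum_left]
  exact Finset.sum_congr rfl (fun k _ => wedge_symm _ _)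

/-- There is no family of four mutually wedge-orthogonal 2-forms with positive squares:
the wedge pairing has signature `(3, 3)`. -/
lemma no_four_positive (w : Fin 4 → Matrix (Fin 4) (Fin 4) ℝ)
    (horth : ∀ j k, j ≠ k → wedge (w j) (w k) = 0) (hpos : ∀ k, 0 < wedge (w k) (w k)) :
    False := by
  have hdep : ¬ LinearIndependent ℝ (fun k => sdc (w k)) := by
    intro hli
    have := hli.fintype_card_le_finrank
    simp at this
  rw [Fintype.not_linearIndependent_iff] at hdep
  obtain ⟨c, hc, k0, hk0⟩ := hdep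
  set u : Matrix (Fin 4) (Fin 4) ℝ := ∑ k, c k • w k with hu
  have hsdc : sdc u = 0 := by rw [hu, sdc_sum]; exact hc
  have hle := wedge_self_nonpos_of_sdc_eq_zero u hsdc
  have hexp : wedge u u = ∑ k, c k ^ 2 * wedge (w k) (w k) := by
    rw [hu, wedge_sum_left]
    refine Finset.sum_congr rfl (fun j _ => ?_)
    rw [wedge_sum_right]
    simp only [wedge_smul_left, wedge_smul_right]
    rw [Finset.sum_eq_single j]
    · ring
    · intro k _ hkj
      rw [horth j k (Ne.symm hkj)]; ring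
    · intro h; exact absurd (Finset.mem_univ j) h
  have hgt : 0 < ∑ k, c k ^ 2 * wedge (w k) (w k) := by
    apply Finset.sum_pos'
    · intro k _
      exact mul_nonneg (sq_nonneg _) (hpos k).le
    · exact ⟨k0, Finset.mem_univ _, mul_pos (by positivity) (hpos k0)⟩
  linarith

/-- If `ν` is wedge-orthogonal to a hyperkaehler triple then `ν ∧ ν ≤ 0`. -/
lemma wedge_self_nonpos_of_orth (θ : Fin 3 → Matrix (Fin 4) (Fin 4) ℝ)
    (hθ : ∀ i j, wedge (θ i) (θ j) = if i = j then 2 else 0)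
    (ν : Matrix (Fin 4) (Fin 4) ℝ) (hν : ∀ j, wedge ν (θ j) = 0) : wedge ν ν ≤ 0 := by
  by_contra hcon
  have hcon := not_le.mp hcon
  apply no_four_positive (Fin.cons ν θ)
  · intro j k
    refine Fin.cases ?_ (fun j' => ?_) j <;> refine Fin.cases ?_ (fun k' => ?_) k
    · intro h; exact absurd rfl h
    · intro _; simpa using hν k'
    · intro _; simp only [Fin.cons_succ, Fin.cons_zero]; rw [wedge_symm]; exact hν j'
    · intro h
      simp only [Fin.cons_succ]
      rw [hθ]
      have : j' ≠ k' := fun e => h (by rw [e])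
      simp [this]
  · intro k
    refine Fin.cases ?_ (fun k' => ?_) k
    · simpa using hcon
    · simp only [Fin.cons_succ]; rw [hθ]; simp

end Vale.Agent.Lib.P247
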